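import Vale.Agent.P004F.Es.Tr

/-! # P014T: twisted corestriction of cocycles -/

set_option linter.all false

noncomputable section

namespace Vale.Agent.P014T.Ur

open Finset
open Vale.Agent.P004F.Es (Fr Cm ex_fr)

variable {G V R : Type} [Group G] [CommRing R] [AddCommGroup V] [Module R V] {Γ H H' D : Subgroup G}
  {U U' : Finset G} {ψ ψ' : G → R} {r : G → V →ₗ[R] V} {x y y' z z' Y Y' : G → V} {g h s t : G}

/-- `r` is an action of `Γ` -/
structure Rp (Γ : Subgroup G) (r : G → V →ₗ[R] V) : Prop where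
  one : ∀ v, r 1 v = v
  mul : ∀ g ∈ Γ, ∀ h ∈ Γ, ∀ v, r (g * h) v = r g (r h v)

/-- cocycles -/
def Z1 (H : Subgroup G) (r : G → V →ₗ[R] V) (y : G → V) : Prop :=
  ∀ g ∈ H, ∀ h ∈ H, y (g * h) = y g + r g (y h)

/-- the twisted action -/
def tw (ψ : G → R) (r : G → V →ₗ[R] V) (g : G) : V →ₗ[R] V := ψ g • r g

/-- `Y` extends `y` -/
def Xt (Γ H : Subgroup G) (r : G → V →ₗ[R] V) (y Y : G → V) : Prop :=
  ∀ u ∈ Γ, ∀ h ∈ H, Y (u * h) = Y u + r u (y h)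

/-- the sum over the cosets -/
def cr (U : Finset G) (ψ : G → R) (r : G → V →ₗ[R] V) (Y : G → V) (g : G) : V :=
  ∑ u ∈ U, ψ (g * u) • (Y (g * u) - r g (Y u))

/-- `z` is a corestriction of `y` twisted by `ψ` -/
def Cr (Γ H : Subgroup G) (ψ : G → R) (r : G → V →ₗ[R] V) (y z : G → V) : Prop :=
  ∃ U Y, Fr Γ H U ψ ∧ Xt Γ H r y Y ∧ ∀ g ∈ Γ, z g = cr U ψ r Y g

theorem Rp.mono (p : Rp Γ r) (le : H ≤ Γ) : Rp H r := ⟨p.one, fun g a h b => p.mul g (le a) h (le b)⟩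

theorem Z1.one (c : Z1 H r y) (p : ∀ v, r 1 v = v) : y 1 = 0 := by
  simpa [p] using c 1 (one_mem H) 1 (one_mem H)

theorem Z1.cj (c : Z1 H r y) (p : Rp H r) (hh : h ∈ H) (ht : t ∈ H) (e : ∀ v, r t v = v) :
    r h (y (h⁻¹ * t * h)) = y t := by
  have a := c h hh _ (mul_mem (mul_mem (inv_mem hh) ht) hh)
  rw [← mul_assoc, mul_inv_cancel_left, c t ht h hh, e, add_comm, add_right_inj] at a
  exact a.symm

theorem ex_xt (f : Fr Γ H U ψ) (p : Rp Γ r) (c : Z1 H r y) :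
    ∃ Y, Xt Γ H r y Y ∧ ∀ u ∈ U, Y u = 0 := by
  choose! π h1 h2 using fun x hx => (f.rep x hx).exists
  refine ⟨fun x => r (π x) (y ((π x)⁻¹ * x)), fun u hu h hh => ?_, fun u hu => ?_⟩
  · have a := mul_mem hu (f.le hh)
    have b : (π u)⁻¹ * u ∈ H := by simpa using inv_mem (h2 u hu)
    have m := f.mem _ (h1 u hu)
    simp only
    rw [(f.rep _ a).unique ⟨h1 _ a, h2 _ a⟩ ⟨h1 u hu, by
      rw [mul_inv_rev, mul_assoc]; exact mul_mem (inv_mem hh) (h2 u hu)⟩, ← mul_assoc, c _ b h hh,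
      map_add, ← p.mul _ m _ (f.le b), mul_inv_cancel_left]
  · have a := f.mem u hu
    simp only
    rw [(f.rep u a).unique ⟨h1 u a, h2 u a⟩ ⟨hu, by simp⟩, inv_mul_cancel, c.one p.one, map_zero]

theorem ex_cr (f : Fr Γ H U ψ) (p : Rp Γ r) (c : Z1 H r y) : ∃ z, Cr Γ H ψ r y z :=
  let ⟨Y, a, _⟩ := ex_xt f p c
  ⟨_, U, Y, f, a, fun _ _ => rfl⟩

theorem Xt.inv (e : Xt Γ H r y Y) (f : Fr Γ H U ψ) (p : Rp Γ r) (hg : g ∈ Γ) : ∀ u ∈ Γ, ∀ h ∈ H,
    ψ (g * (u * h)) • (Y (g * (u * h)) - r g (Y (u * h))) = ψ (g * u) • (Y (g * u) - r g (Y u)) :=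
  fun u hu h hh => by
  rw [← mul_assoc, f.psi (mul_mem hg hu) hh, e _ (mul_mem hg hu) h hh, e u hu h hh, map_add,
    p.mul g hg u hu, add_sub_add_right_eq_sub]

/-- the sum does not depend on the representatives -/
theorem Xt.ind (e : Xt Γ H r y Y) (f : Fr Γ H U ψ) (f' : Fr Γ H U' ψ') (p : Rp Γ r) (hg : g ∈ Γ) :
    cr U' ψ r Y g = cr U ψ r Y g :=
  f.rei (v := id) (p := fun u => ψ (g * u) • (Y (g * u) - r g (Y u))) (e.inv f p hg) f'.mem f'.rep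

theorem Cr.le (c : Cr Γ H ψ r y z) : H ≤ Γ := let ⟨_, _, f, _⟩ := c; f.le

theorem Cr.congr (c : Cr Γ H ψ r y z) (a : ∀ h ∈ H, y' h = y h) (b : ∀ g ∈ Γ, z' g = z g) :
    Cr Γ H ψ r y' z' :=
  let ⟨U, Y, f, e, k⟩ := c
  ⟨U, Y, f, fun u hu h hh => by rw [a h hh, e u hu h hh], fun g hg => (b g hg).trans (k g hg)⟩

/-- any system of representatives may be used -/
theorem Cr.with (c : Cr Γ H ψ r y z) (p : Rp Γ r) (f' : Fr Γ H U' ψ') :
    ∃ Y, Xt Γ H r y Y ∧ ∀ g ∈ Γ, z g = cr U' ψ r Y g :=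
  let ⟨_, Y, f, e, k⟩ := c
  ⟨Y, e, fun g hg => (k g hg).trans (e.ind f f' p hg).symm⟩

theorem Cr.coc (c : Cr Γ H ψ r y z) (p : Rp Γ r) : Z1 Γ (tw ψ r) z := fun g hg h hh => by
  obtain ⟨U, Y, f, e, k⟩ := c
  rw [k _ (mul_mem hg hh), k g hg, k h hh, cr, cr, cr, ← f.sum (p := fun u => ψ (g * u) •
    (Y (g * u) - r g (Y u))) (e.inv f p hg) hh, map_sum, ← sum_add_distrib]
  refine sum_congr rfl fun u hu => ?_
  have hu := f.mem u hu
  rw [tw, LinearMap.smul_apply, map_smul, smul_smul, ← f.mul g hg _ (mul_mem hh hu), ← smul_add,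
    map_sub, p.mul g hg h hh, mul_assoc, sub_add_sub_cancel]

theorem Cr.add (c : Cr Γ H ψ r y z) (c' : Cr Γ H ψ r y' z') (p : Rp Γ r) :
    Cr Γ H ψ r (y + y') (z + z') := by
  obtain ⟨U, Y, f, e, k⟩ := c
  obtain ⟨Y', e', k'⟩ := c'.with p f
  refine ⟨U, Y + Y', f, fun u hu h hh => ?_, fun g hg => ?_⟩
  · simp only [Pi.add_apply, e u hu h hh, e' u hu h hh, map_add]; abel
  · simp only [Pi.add_apply, k g hg, k' g hg, cr, ← sum_add_distrib, map_add, ← smul_add]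
    exact sum_congr rfl fun u _ => congrArg _ (by abel)

/-- change of coefficients -/
theorem Cr.map {V' R' : Type} [CommRing R'] [AddCommGroup V'] [Module R' V'] {ψ' : G → R'}
    {r' : G → V' →ₗ[R'] V'} (c : Cr Γ H ψ r y z) (F : V →+ V')
    (h1 : ∀ g ∈ Γ, ∀ v, F (r g v) = r' g (F v)) (h2 : ∀ g ∈ Γ, ∀ v, F (ψ g • v) = ψ' g • F v)
    (h3 : ∀ g ∈ Γ, ∀ h ∈ Γ, ψ' (g * h) = ψ' g * ψ' h) (h4 : ∀ h ∈ H, ψ' h = 1) :
    Cr Γ H ψ' r' (fun g => F (y g)) fun g => F (z g) := by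
  obtain ⟨U, Y, f, e, k⟩ := c
  refine ⟨U, fun g => F (Y g), ⟨f.le, f.mem, f.rep, h3, h4⟩, fun u hu h hh => ?_, fun g hg => ?_⟩
  · simp only [e u hu h hh, map_add, h1 u hu]
  · simp only [k g hg, cr, map_sum]
    exact sum_congr rfl fun u hu => by rw [h2 _ (mul_mem hg (f.mem u hu)), map_sub, h1 g hg]

theorem Cr.smul (c : Cr Γ H ψ r y z) (a : R) : Cr Γ H ψ r (a • y) (a • z) :=
  let ⟨_, _, f, _⟩ := id c
  c.map (DistribSMul.toAddMonoidHom V a) (fun g _ v => (map_smul (r g) a v).symm)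
    (fun g _ v => smul_comm a (ψ g) v) f.mul f.one

theorem cr_cob (f : Fr Γ H U ψ) {B : G → V} (hB : ∀ u ∈ Γ, ∀ h ∈ H, B (u * h) = B u) (hg : g ∈ Γ) :
    cr U ψ r B g = ∑ u ∈ U, ψ u • B u - tw ψ r g (∑ u ∈ U, ψ u • B u) := by
  nth_rewrite 1 [← f.sum (p := fun u => ψ u • B u)
    (fun u hu h hh => by rw [f.psi hu hh, hB u hu h hh]) hg]
  rw [map_sum, ← sum_sub_distrib]
  exact sum_congr rfl fun u hu => by
    rw [tw, LinearMap.smul_apply, map_smul, smul_smul, ← f.mul g hg u (f.mem u hu), smul_sub]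

/-- the class is well defined -/
theorem Cr.uniq (c : Cr Γ H ψ r y z) (c' : Cr Γ H ψ r y z') (p : Rp Γ r) :
    ∃ m, ∀ g ∈ Γ, z' g = z g + (tw ψ r g m - m) := by
  obtain ⟨U, Y, f, e, k⟩ := c
  obtain ⟨Y', e', k'⟩ := c'.with p f
  refine ⟨∑ u ∈ U, ψ u • (Y - Y') u, fun g hg => ?_⟩
  rw [← neg_sub, ← cr_cob f (fun u hu h hh => by
    simp only [Pi.sub_apply, e u hu h hh, e' u hu h hh]; abel) hg, k g hg, k' g hg, cr, cr, cr,
    ← sub_eq_add_neg, ← sum_sub_distrib]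
  exact sum_congr rfl fun u _ => by simp only [Pi.sub_apply, map_sub, ← smul_sub]; congr 1; abel

theorem Cr.cobl (c : Cr Γ H ψ r y z) (p : Rp Γ r) (m : V) :
    Cr Γ H ψ r (fun h => y h + (r h m - m)) z := by
  obtain ⟨U, Y, f, e, k⟩ := c
  refine ⟨U, fun u => Y u + r u m, f, fun u hu h hh => ?_, fun g hg => (k g hg).trans ?_⟩
  · simp only [e u hu h hh, map_add, map_sub, p.mul u hu h (f.le hh)]; abel
  · exact sum_congr rfl fun u hu => by
      simp only [map_add, p.mul g hg u (f.mem u hu), add_sub_add_right_eq_sub]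

theorem Cr.cobr (c : Cr Γ H ψ r y z) (m : V) :
    Cr Γ H ψ r y fun g => z g + (tw ψ r g m - m) := by
  classical
  obtain ⟨U, Y, f, e, k⟩ := c
  let B : G → V := fun u => if u ∈ H then m else 0
  have hB : ∀ u ∈ Γ, ∀ h ∈ H, B (u * h) = B u := fun u _ h hh => by
    simp only [B, H.mul_mem_cancel_right hh]
  have s : ∑ u ∈ U, ψ u • B u = m := by
    obtain ⟨u, ⟨a, b⟩, q⟩ := f.rep 1 (one_mem Γ)
    rw [inv_one, one_mul] at b
    rw [sum_eq_single_of_mem u a fun v hv ne => by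
      simp only [B]; rw [if_neg fun c => ne (q v ⟨hv, by simpa using c⟩), smul_zero]]
    simp only [B, if_pos b, f.one u b, one_smul]
  refine ⟨U, Y - B, f, fun u hu h hh => ?_, fun g hg => ?_⟩
  · simp only [Pi.sub_apply, e u hu h hh, hB u hu h hh]; abel
  · simp only
    rw [← neg_sub m, ← s, ← cr_cob f hB hg, k g hg, cr, cr, cr, ← sub_eq_add_neg, ← sum_sub_distrib]
    exact sum_congr rfl fun u _ => by simp only [Pi.sub_apply, map_sub, ← smul_sub]; congr 1; abel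

theorem fr_mul {T : Finset G} (f1 : Fr Γ H' U' ψ) (f2 : Fr H' H T ψ') : ∃ U, Fr Γ H U ψ := by
  classical
  refine ⟨(U' ×ˢ T).image fun k => k.1 * k.2, f2.le.trans f1.le, fun u hu => ?_, fun g hg => ?_, f1.mul,
    fun h hh => f1.one h (f2.le hh)⟩
  · obtain ⟨k, hk, rfl⟩ := mem_image.1 hu
    exact mul_mem (f1.mem _ (mem_product.1 hk).1) (f1.le (f2.mem _ (mem_product.1 hk).2))
  obtain ⟨u, ⟨a, b⟩, uq⟩ := f1.rep g hg
  obtain ⟨v, ⟨c, d⟩, vq⟩ := f2.rep _ (inv_mem b)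
  rw [inv_inv] at d vq
  refine ⟨u * v, ⟨mem_image.2 ⟨(u, v), mem_product.2 ⟨a, c⟩, rfl⟩, mul_assoc g⁻¹ u v ▸ d⟩, ?_⟩
  rintro _ ⟨e, e'⟩
  obtain ⟨⟨u', v'⟩, e0, rfl⟩ := mem_image.1 e
  obtain ⟨e1, e2⟩ := mem_product.1 e0
  rw [← mul_assoc] at e'
  obtain rfl : u' = u := uq u' ⟨e1, (mul_mem_cancel_right (f2.mem _ e2)).1 (f2.le e')⟩
  exact congrArg _ (vq v' ⟨e2, e'⟩)

theorem Cr.z1 (c : Cr Γ H ψ r y z) (p : Rp Γ r) : Z1 H r y := fun g a h b => by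
  obtain ⟨U, Y, f, e, -⟩ := c
  have := e g (f.le a) h b
  rw [← one_mul (g * h), e 1 (one_mem Γ) _ (mul_mem a b), ← one_mul g, e 1 (one_mem Γ) g a, p.one,
    p.one, add_assoc, add_right_inj, one_mul] at this
  exact this

/-- transitivity -/
theorem Cr.trans (c : Cr H' H (fun _ => 1) r y y') (c' : Cr Γ H' ψ r y' z) (p : Rp Γ r) :
    Cr Γ H ψ r y z := by
  obtain ⟨T, -, f2, -⟩ := id c
  obtain ⟨U', -, f1, -⟩ := id c'
  obtain ⟨U, f⟩ := fr_mul f1 f2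
  have p' := p.mono f1.le
  obtain ⟨Y, e, -⟩ := ex_xt f p (c.z1 p')
  have c1 : Cr H' H (fun _ => 1) r y (cr T (fun _ => 1) r Y) :=
    ⟨T, Y, f2, fun u hu => e u (f1.le hu), fun _ _ => rfl⟩
  have c2 : Cr Γ H' ψ r (cr T (fun _ => 1) r Y) (cr U ψ r Y) := by
    refine ⟨U', fun u => ∑ v ∈ T, Y (u * v) - r u (∑ v ∈ T, Y v), f1, fun u hu h hh => ?_,
      fun g hg => ?_⟩
    · have := f2.sum (p := fun v => Y (u * v) - r u (Y v)) (fun v hv k hk => by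
        simpa using e.inv (ψ := fun _ => 1)
          ⟨f.le, f.mem, f.rep, by simp, by simp⟩ p hu v (f1.le hv) k hk) hh
      simp only [cr, one_smul, map_sum, map_sub, sum_sub_distrib, p.mul u hu h (f1.le hh),
        mul_assoc] at this ⊢
      rw [sub_eq_iff_eq_add.1 this]
      abel
    · rw [cr, f.tow f1 f2 (e.inv f p hg), cr]
      refine sum_congr rfl fun u hu => ?_
      have hu := f1.mem u hu
      simp only [map_sub, p.mul g hg u hu, sub_sub_sub_cancel_right, map_sum, ← sum_sub_distrib,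
        smul_sum]
      exact sum_congr rfl fun v hv => by
        rw [← mul_assoc, f1.psi (mul_mem hg hu) (f2.mem v hv)]
  obtain ⟨m, hm⟩ := c1.uniq c p'
  obtain ⟨m', hm'⟩ := ((c2.cobl p m).congr (fun h hh => by simpa [tw] using hm h hh)
    fun _ _ => rfl).uniq c' p
  exact (Cr.cobr ⟨U, Y, f, e, fun _ _ => rfl⟩ m').congr (fun _ _ => rfl) hm'

/-- corestriction after restriction -/
theorem cr_res (f : Fr Γ H U ψ) (c : Z1 Γ r x) : Cr Γ H ψ r x fun g => (ψ g * ∑ u ∈ U, ψ u) • x g :=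
  ⟨U, x, f, fun u hu h hh => c u hu h (f.le hh), fun g hg => by
    simp only [cr, mul_sum, sum_smul]
    exact sum_congr rfl fun u hu => by
      rw [c g hg u (f.mem u hu), add_sub_cancel_right, f.mul g hg u (f.mem u hu)]⟩

/-- conjugation -/
theorem Cr.conj (c : Cr Γ H ψ r y z) (p : Rp Γ r) (hs : s ∈ Γ)
    (n : ∀ h, h ∈ H ↔ s⁻¹ * h * s ∈ H) :
    Cr Γ H ψ r (fun h => ψ s • r s (y (s⁻¹ * h * s))) z := by
  obtain ⟨U, Y, f, e, k⟩ := c
  refine ⟨U, fun u => ψ s • Y (u * s), f, fun u hu h hh => ?_, fun g hg => ?_⟩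
  · simp only
    rw [map_smul, ← p.mul u hu s hs, ← smul_add, ← e _ (mul_mem hu hs) _ ((n h).1 hh)]
    congr 2; group
  · rw [k g hg, cr, ← f.rei (v := (· * s)) (p := fun u => ψ (g * u) • (Y (g * u) - r g (Y u)))
      (e.inv f p hg) (fun u hu => mul_mem (f.mem u hu) hs) fun a ha => by
        refine (existsUnique_congr fun u => and_congr_right' ?_).1 (f.rep _ (mul_mem ha (inv_mem hs)))
        rw [n, mul_inv_rev, inv_inv, mul_assoc s, inv_mul_cancel_left, mul_assoc]]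
    exact sum_congr rfl fun u hu => by
      rw [map_smul, ← smul_sub, smul_smul, ← f.mul _ (mul_mem hg (f.mem u hu)) s hs, mul_assoc]

/-- the value on the core -/
theorem Cr.core (c : Cr Γ H ψ r y z) (p : Rp Γ r) (f : Fr Γ H U ψ) : ∃ m, ∀ g ∈ Γ,
    (∀ u ∈ U, u⁻¹ * g * u ∈ H) → z g = ∑ u ∈ U, ψ u • r u (y (u⁻¹ * g * u)) + (r g m - m) := by
  obtain ⟨Y, e, k⟩ := c.with p f
  refine ⟨-∑ u ∈ U, ψ u • Y u, fun g hg n => ?_⟩
  rw [k g hg, cr, map_neg, neg_sub_neg, map_sum, ← sum_sub_distrib, ← sum_add_distrib]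
  refine sum_congr rfl fun u hu => ?_
  have a : g * u = u * (u⁻¹ * g * u) := by group
  rw [a, f.psi (f.mem u hu) (n u hu), e u (f.mem u hu) _ (n u hu), map_smul, ← smul_sub, ← smul_add]
  congr 1; abel

theorem Cr.zero (c : Cr Γ H ψ r y z) (p : Rp Γ r) (hg : g ∈ Γ) (e : ∀ v, r g v = v)
    (n : ∀ u ∈ Γ, u⁻¹ * g * u ∈ H ∧ y (u⁻¹ * g * u) = 0) : z g = 0 := by
  obtain ⟨U, -, f, -⟩ := id c
  obtain ⟨m, hm⟩ := c.core p f
  rw [hm g hg fun u hu => (n u (f.mem u hu)).1, e, sub_self, add_zero]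
  exact sum_eq_zero fun u hu => by rw [(n u (f.mem u hu)).2, map_zero, smul_zero]

/-- **the double coset formula**: locally trivial classes stay locally trivial -/
theorem Cr.loc (c : Cr Γ H ψ r y z) (p : Rp Γ r) (hD : D ≤ Γ)
    (t : ∀ u ∈ Γ, ∃ m, ∀ g ∈ D, u⁻¹ * g * u ∈ H → r u (y (u⁻¹ * g * u)) = r g m - m) :
    ∃ m, ∀ g ∈ D, z g = tw ψ r g m - m := by
  obtain ⟨U, -, f, -⟩ := id c
  have c1 := c.z1 p
  choose! m hm using t
  let ρ : G → G := fun x => Classical.epsilon fun u => ∃ d ∈ D, ∃ h ∈ H, x = d * u * h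
  have h0 : ∀ x, ∃ d ∈ D, ∃ h ∈ H, x = d * ρ x * h := fun x => Classical.epsilon_spec
    (p := fun u => ∃ d ∈ D, ∃ h ∈ H, x = d * u * h) ⟨x, 1, one_mem _, 1, one_mem _, by simp⟩
  have h1 : ∀ x, ∀ d ∈ D, ∀ h ∈ H, ρ (d * x * h) = ρ x := fun x d a h b =>
    congrArg Classical.epsilon (funext fun u => propext ⟨fun ⟨d', a', h', b', e⟩ =>
      ⟨_, mul_mem (inv_mem a) a', _, mul_mem b' (inv_mem b), by
        rw [show x = d⁻¹ * (d * x * h) * h⁻¹ by group, e]; group⟩,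
      fun ⟨d', a', h', b', e⟩ => ⟨_, mul_mem a a', _, mul_mem b' b, by rw [e]; group⟩⟩)
  have wd : ∀ u ∈ Γ, ∀ d ∈ D, ∀ d' ∈ D, ∀ h ∈ H, ∀ h' ∈ H, d * u * h = d' * u * h' →
      r d (m u) + r (d * u) (y h) = r d' (m u) + r (d' * u) (y h') := fun u hu d a d' a' h b h' b' e => by
    have e1 : u⁻¹ * (d'⁻¹ * d) * u = h' * h⁻¹ := by
      rw [show d = d' * u * h' * h⁻¹ * u⁻¹ by rw [← e]; group]; group
    have m1 := mul_mem b' (inv_mem b)
    have := congrArg (r d') (hm u hu _ (mul_mem (inv_mem a') a) (e1 ▸ m1))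
    rw [e1, map_sub, ← p.mul _ (hD a') _ (hD (mul_mem (inv_mem a') a)), mul_inv_cancel_left,
      ← p.mul _ (hD a') u hu] at this
    rw [← inv_mul_cancel_right h' h, c1 _ m1 h b, map_add, this,
      ← p.mul _ (mul_mem (hD a') hu) _ (f.le m1), ← mul_assoc, ← e, mul_inv_cancel_right]
    abel
  choose d a k b e using h0
  let Y : G → V := fun x => r (d x) (m (ρ x)) + r (d x * ρ x) (y (k x))
  have hρ : ∀ x ∈ Γ, ρ x ∈ Γ := fun x hx => (mul_mem_cancel_left (hD (a x))).1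
    ((mul_mem_cancel_right (f.le (b x))).1 (e x ▸ hx))
  have h2 : ∀ x ∈ Γ, ∀ d' ∈ D, ∀ h ∈ H, Y (d' * x * h) = r d' (Y x + r x (y h)) := by
    intro x hx d' a' h b'
    have e1 := e (d' * x * h)
    have m1 := mul_mem (hD (a x)) (hρ x hx)
    simp only [Y]
    rw [h1 x d' a' h b'] at e1 ⊢
    rw [wd _ (hρ x hx) _ (a _) _ (mul_mem a' (a x)) _ (b _) _ (mul_mem (b x) b') (by
      rw [← e1]; nth_rewrite 1 [e x]; group), c1 _ (b x) h b', map_add, mul_assoc, p.mul _ (hD a') _ m1,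
      p.mul _ (hD a') _ m1, ← p.mul _ m1 _ (f.le (b x)), ← e x, p.mul _ (hD a') _ (hD (a x)), map_add,
      map_add, add_assoc]
  obtain ⟨m, hm⟩ := Cr.uniq ⟨U, Y, f, fun u hu h hh => by
    simpa [p.one] using h2 u hu 1 (one_mem D) h hh, fun _ _ => rfl⟩ c p
  refine ⟨m, fun g hg => ?_⟩
  rw [hm g (hD hg), cr, sum_eq_zero fun u hu => ?_, zero_add]
  have := h2 u (f.mem u hu) g hg 1 (one_mem H)
  rw [mul_one, c1.one p.one, map_zero, add_zero] at this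
  rw [this, sub_self, smul_zero]

/-- the class has a representative which vanishes on `D` -/
theorem Cr.frame (c : Cr Γ H ψ r y z) (p : Rp Γ r) (hD : D ≤ Γ)
    (t : ∀ u ∈ Γ, ∀ g ∈ D, u⁻¹ * g * u ∈ H → g = 1) :
    ∃ z', Cr Γ H ψ r y z' ∧ (∀ g ∈ D, z' g = 0) ∧ ∃ m, ∀ g, z' g = z g + (tw ψ r g m - m) := by
  obtain ⟨m, hm⟩ := c.loc p hD fun u hu => ⟨0, fun g hg a => by
    rw [t u hu g hg a, mul_one, inv_mul_cancel, (c.z1 p).one p.one]; simp⟩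
  exact ⟨_, c.cobr (-m), fun g hg => by simp [hm g hg], -m, fun _ => rfl⟩

/-- free orbits of `t` of length divisible by the exponent -/
theorem Cr.orb [H.Normal] [Finite (G ⧸ H)] (c : Cr Γ H ψ r y z) (p : Rp Γ r) (cm : Cm Γ H)
    (hs : s ∈ H) (rs : ∀ v, r s v = v) (ht : t ∈ Γ) (rt : ∀ v, r t v = v) (pt : ψ t = 1) {n : ℕ}
    (hn : ∀ v : V, n • v = 0) (o : ∀ i : ℕ, t ^ i ∈ H → n ∣ i)
    (e : ∀ u ∈ Γ, y (u⁻¹ * (t⁻¹ * s * t) * u) = y (u⁻¹ * s * u)) : z s = 0 := by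
  obtain ⟨U, -, f, -⟩ := id c
  have N : ∀ u, u⁻¹ * s * u ∈ H := ‹H.Normal›.conj_mem' s hs
  obtain ⟨m, hm⟩ := c.core p f
  rw [hm s (f.le hs) fun u _ => N u, rs, sub_self, add_zero]
  have hp : ∀ u ∈ Γ, ∀ h ∈ H, ψ (u * h) • r (u * h) (y ((u * h)⁻¹ * s * (u * h))) =
      ψ u • r u (y (u⁻¹ * s * u)) := fun u hu h hh => by
    rw [f.psi hu hh, p.mul u hu h (f.le hh), ← (c.z1 p).cj (p.mono f.le) hh (N u) fun v => by
      rw [p.mul _ (mul_mem (inv_mem hu) (f.le hs)) u hu, p.mul _ (inv_mem hu) s (f.le hs), rs,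
        ← p.mul _ (inv_mem hu) u hu, inv_mul_cancel, p.one]]
    congr 3; group
  have ht' : ∀ i : ℕ, ∀ u ∈ Γ, ψ (u * t ^ i) • r (u * t ^ i) (y ((u * t ^ i)⁻¹ * s * (u * t ^ i))) =
      ψ u • r u (y (u⁻¹ * s * u)) := fun i u hu => by
    induction i with
    | zero => simp
    | succ i ih =>
      have a := mul_mem hu (pow_mem ht i)
      rw [pow_succ, ← mul_assoc u, ← ih]
      generalize u * t ^ i = w at a
      rw [show w * t = t * w * (w⁻¹ * t⁻¹ * w⁻¹⁻¹ * t⁻¹⁻¹) by group,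
        hp _ (mul_mem ht a) _ (cm _ (inv_mem a) _ (inv_mem ht)), f.mul t ht w a, pt, one_mul,
        p.mul t ht w a, rt, ← e w a]
      congr 3; group
  let q := QuotientGroup.mk' H
  have k : ∀ i : ℕ, t ^ i ∈ H ↔ orderOf (q t) ∣ i := fun i => by
    rw [orderOf_dvd_iff_pow_eq_one, ← map_pow]; exact (QuotientGroup.eq_one_iff _).symm
  have k2 : ∀ g ∈ (Subgroup.zpowers (q t)).comap q, ∃ i : ℕ, g⁻¹ * t ^ i ∈ H := fun g hg => by
    obtain ⟨i, hi⟩ := (mem_powers_iff_mem_zpowers.2 hg : q g ∈ Submonoid.powers (q t))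
    exact ⟨i, QuotientGroup.eq.1 (hi.symm.trans (map_pow q t i).symm)⟩
  have le : H ≤ (Subgroup.zpowers (q t)).comap q := fun h hh => by
    rw [Subgroup.mem_comap, show q h = 1 from (QuotientGroup.eq_one_iff h).2 hh]; exact one_mem _
  have := Subgroup.finiteIndex_of_finite_quotient (H := H)
  have := Subgroup.finiteIndex_of_le le
  have k3 : ∀ g ∈ (Subgroup.zpowers (q t)).comap q, g ∈ Γ ∧ ψ g = 1 := fun g hg => by
    obtain ⟨i, hi⟩ := k2 g hg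
    have a := (mul_mem_cancel_right (pow_mem ht i)).1 (f.le hi)
    refine ⟨inv_mem_iff.1 a, ?_⟩
    rw [← f.psi (inv_mem_iff.1 a) hi, mul_inv_cancel_left]
    clear hi
    induction i with
    | zero => exact f.one _ (by simp)
    | succ i ih => rw [pow_succ, f.mul _ (pow_mem ht i) t ht, ih, pt, one_mul]
  obtain ⟨U', f'⟩ := ex_fr (fun g hg => (k3 g hg).1) f.mul fun g hg => (k3 g hg).2
  rw [f'.two f le (orderOf_pos _) (Subgroup.mem_zpowers _) k k2 hp]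
  refine sum_eq_zero fun u hu => ?_
  obtain ⟨j, hj⟩ := o _ ((k _).2 dvd_rfl)
  rw [sum_congr rfl fun i _ => ht' i u (f'.mem u hu), sum_const, card_range, hj, mul_smul, hn]

end Vale.Agent.P014T.Ur
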