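import Vale.Agent.P014T.Ur.Cor
import Vale.Agent.P004F.Lt.Grp

/-! # P014T: universal norms are unramified, corestrictions from complex fields are framed -/

set_option linter.all false

open NumberField

noncomputable section

namespace Vale.Agent.P014T.Ur

open Vale.Agent.P022
open Vale.Agent.P022.H443 (inP galQb)
open Vale.Agent.P027M.S (Inert)
open Vale.Agent.P022D.W (dec tame inP_le_dec phi_mem phi_pow conj_inP exists_phi)
open Vale.Agent.P022E.GW (Ov Fb)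
open Vale.Agent.P004F.Es (Fr Cm)
open Vale.Agent.P004F.Lt (ex_nrm ex_pow root)

variable {V R : Type} [CommRing R] [AddCommGroup V] [Module R V] {Γ H : Subgroup GQ} {ψ : GQ → R}
  {r : GQ → V →ₗ[R] V} {y z : GQ → V} {l k : ℕ} {P : Ideal (𝓞 Qb)} {φ : GQ}

/-- locally constant -/
def Lc (y : GQ → V) : Prop := ∃ W : Subgroup GQ, IsOpen (W : Set GQ) ∧ ∀ w ∈ W, y w = 0

/-- `H` fixes the roots of unity of order `m` -/
def Cy (m : ℕ) (H : Subgroup GQ) : Prop := ∀ g ∈ H, ∀ ζ : Qb, ζ ^ m = 1 → g ζ = ζ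

theorem Cr.lc (c : Cr Γ H ψ r y z) (p : Rp Γ r) (o : IsOpen (H : Set GQ)) (h : Lc y)
    (hr : ∃ W : Subgroup GQ, IsOpen (W : Set GQ) ∧ ∀ w ∈ W, ∀ v, r w v = v) : Lc z := by
  obtain ⟨W, a, b⟩ := h
  obtain ⟨W', a', b'⟩ := hr
  obtain ⟨N, n, oN, le⟩ := ex_nrm (U := H ⊓ W ⊓ W') ((o.inter a).inter a')
  exact ⟨N, oN, fun w hw => c.zero p (c.le (le hw).1.1) (b' w (le hw).2) fun u _ =>
    ⟨(le (n.conj_mem' w hw u)).1.1, b _ (le (n.conj_mem' w hw u)).1.2⟩⟩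

/-- the tame relation for homomorphisms of the inertia group -/
theorem tam_hom (hV : ∀ v : V, 2 ^ k • v = 0) (o : Ov l P) (l2 : l ≠ 2) (fb : Fb l P φ) {f : GQ → V}
    (hf : ∀ g ∈ inP P, ∀ h ∈ inP P, f (g * h) = f g + f h) (lc : Lc f) (n : ℕ) :
    ∀ s ∈ inP P, f (φ ^ n * s * (φ ^ n)⁻¹) = l ^ n • f s := by
  obtain ⟨W, a, b⟩ := lc
  obtain ⟨N, nN, oN, le⟩ := ex_nrm a
  obtain ⟨t, -, T⟩ := tame o.1 l2 o.2.1 o.2.2
  obtain ⟨M, T⟩ := T φ fb _ (QuotientGroup.mk' N) (by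
    convert oN using 1; ext g; exact QuotientGroup.eq_one_iff g)
  have pw : ∀ s ∈ inP P, ∀ m : ℕ, f (s ^ m) = m • f s := fun s hs m => by
    induction m with
    | zero => simpa using b 1 (one_mem _)
    | succ m ih => rw [pow_succ, hf _ (pow_mem hs m) s hs, ih, succ_nsmul]
  induction n with
  | zero => simp
  | succ n ih =>
    intro s hs
    obtain ⟨u, hu, e⟩ := T.rel s hs
    obtain ⟨m, c, d⟩ := T.odd u hu
    have z : f u = 0 := (nsmul_eq_zero_iff_of_coprime ((Nat.coprime_two_right.2 c).pow_right k)).1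
      ⟨(pw u (T.NI hu) m).symm.trans (b _ (le ((QuotientGroup.eq_one_iff _).1
        ((map_pow _ u m).trans d)))), hV _⟩
    rw [show φ ^ (n + 1) * s * (φ ^ (n + 1))⁻¹ = φ ^ n * (φ * s * φ⁻¹) * (φ ^ n)⁻¹ by group,
      ih _ (T.cjI φ T.phi s hs), e, hf u (T.NI hu) _ (pow_mem hs l), z, zero_add, pw s hs, pow_succ,
      mul_smul]

theorem ord_big {x : ℕ} (hx : 1 < x) (o : Odd x) (k : ℕ) :
    ∃ n, ∀ i, x ^ i ≡ 1 [MOD 2 ^ n] → 2 ^ k ∣ i := by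
  refine ⟨x ^ 2 ^ k, fun i hi => ?_⟩
  set n := x ^ 2 ^ k with hn
  have n1 : 1 < n := Nat.one_lt_pow (by positivity) hx
  have c : ∀ i, x ^ i ≡ 1 [MOD 2 ^ n] ↔ orderOf (x : ZMod (2 ^ n)) ∣ i := fun i => by
    rw [orderOf_dvd_iff_pow_eq_one, ← ZMod.natCast_eq_natCast_iff]; push_cast; rfl
  have t := (c _).1 (Nat.ModEq.pow_totient ((Nat.coprime_two_right.2 o).pow_right n))
  rw [Nat.totient_prime_pow Nat.prime_two (by omega), show 2 - 1 = 1 from rfl, mul_one] at t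
  obtain ⟨j, -, e⟩ := (Nat.dvd_prime_pow Nat.prime_two).1 t
  refine (pow_dvd_pow 2 (not_lt.1 fun lt => ?_)).trans (e ▸ (c i).1 hi)
  have := (c (2 ^ k)).2 (e ▸ pow_dvd_pow 2 lt.le)
  rw [← hn, Nat.ModEq, Nat.mod_eq_of_lt n.lt_two_pow_self,
    Nat.mod_eq_of_lt (n1.trans n.lt_two_pow_self)] at this
  omega

theorem cy_frob (o : Ov l P) (l2 : l ≠ 2) (fb : Fb l P φ) {n i : ℕ} (c : Cy (2 ^ n) H)
    (h : φ ^ i ∈ H) : l ^ i ≡ 1 [MOD 2 ^ n] := by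
  obtain ⟨ζ, hζ⟩ := HasEnoughRootsOfUnity.exists_primitiveRoot Qb (2 ^ n)
  have := root (g := φ ^ i) o (fun d => l2 ((Nat.prime_dvd_prime_iff_eq o.1 Nat.prime_two).1
    (o.1.dvd_of_dvd_pow d))) hζ.pow_eq_one (phi_pow o.1 o.2.1 fb i)
  rw [c _ h ζ hζ.pow_eq_one] at this
  have l0 := Nat.one_le_pow i l o.1.pos
  refine ((Nat.modEq_iff_dvd' l0).2 ((hζ.pow_eq_one_iff_dvd _).1 ?_)).symm
  refine mul_right_cancel₀ (hζ.ne_zero (by positivity)) ?_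
  rw [← pow_succ, Nat.sub_add_cancel l0, one_mul, ← this]

/-- **universal norms are unramified** -/
theorem unr (p : Rp Γ r) (hV : ∀ v : V, 2 ^ k • v = 0) (o : Ov l P) (l2 : l ≠ 2)
    (hr : ∃ W : Subgroup GQ, IsOpen (W : Set GQ) ∧ ∀ w ∈ W, w ∈ Γ ∧ ψ w = 1 ∧ ∀ v, r w v = v)
    (rI : ∀ s, Inert P s → ∀ v, r s v = v)
    (tower : ∀ n, ∃ (H : Subgroup GQ) (y : GQ → V), H.Normal ∧ IsOpen (H : Set GQ) ∧ Cm Γ H ∧
      (∀ s, Inert P s → s ∈ H) ∧ Cy (2 ^ n) H ∧ Lc y ∧ Cr Γ H ψ r y z) :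
    ∀ s, Inert P s → z s = 0 := fun s hs => by
  obtain ⟨W, oW, hW⟩ := hr
  obtain ⟨φ, fb⟩ := exists_phi o.1 o.2.1 o.2.2
  obtain ⟨a, a0, ha⟩ := ex_pow oW φ
  have od := o.1.odd_of_ne_two l2
  let N := a * (2 ^ k).totient
  have N0 : N ≠ 0 := (mul_pos a0 (Nat.totient_pos.2 (by positivity))).ne'
  have hN : φ ^ N ∈ W := pow_mul φ a _ ▸ pow_mem ha _
  obtain ⟨n, hn⟩ := ord_big (Nat.one_lt_pow N0 o.1.one_lt) od.pow k
  obtain ⟨H, y, nH, oH, cm, iH, cy, ⟨W', oW', hW'⟩, c⟩ := tower n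
  have := galQb
  have := H.quotient_finite_of_isOpen oH
  obtain ⟨m1, m2, m3⟩ := hW _ (inv_mem hN)
  refine c.orb p cm (iH s hs) (rI s hs) m1 m3 m2 hV (fun i hi => hn i ?_) fun u hu => ?_
  · rw [inv_pow, inv_mem_iff, ← pow_mul] at hi
    exact pow_mul l N i ▸ cy_frob o l2 fb cy hi
  obtain ⟨M, nM, oM, le⟩ := ex_nrm oW'
  rw [inv_inv, tam_hom (f := fun g => y (u⁻¹ * g * u)) hV o l2 fb (fun g hg h hh => ?_)
    ⟨M, oM, fun w hw => hW' _ (le (nM.conj_mem' w hw u))⟩ N s hs]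
  · obtain ⟨j, hj⟩ := (Nat.modEq_iff_dvd' (Nat.one_le_pow N l o.1.pos)).1 (by
      simpa [N, mul_comm a, pow_mul] using ((Nat.ModEq.pow_totient
        ((Nat.coprime_two_right.2 od).pow_right k)).pow a).symm : 1 ≡ l ^ N [MOD 2 ^ k])
    rw [← Nat.sub_add_cancel (Nat.one_le_pow N l o.1.pos), hj, add_smul, mul_smul, hV, zero_add,
      one_smul]
  · have g1 := c.le (iH g hg)
    rw [show u⁻¹ * (g * h) * u = u⁻¹ * g * u * (u⁻¹ * h * u) by group,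
      c.z1 p _ (nH.conj_mem' g (iH g hg) u) _ (nH.conj_mem' h (iH h hh) u),
      p.mul _ (mul_mem (inv_mem hu) g1) u hu, p.mul _ (inv_mem hu) g g1, rI g hg,
      ← p.mul _ (inv_mem hu) u hu, inv_mul_cancel, p.one]

/-- **the real place**: a corestriction from a field which contains `√-1` has a representative
which vanishes at the complex conjugation `c` -/
theorem real (c : Cr Γ H ψ r y z) (p : Rp Γ r) {σ : GQ} (hσ : IsConj σ) (m : σ ∈ Γ) (cy : Cy 4 H) :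
    ∃ z', Cr Γ H ψ r y z' ∧ z' σ = 0 ∧ ∃ m, ∀ g, z' g = z g + (tw ψ r g m - m) := by
  obtain ⟨e, he⟩ := hσ
  have s2 : σ * σ = 1 := AlgEquiv.ext fun x => e.injective (by
    rw [AlgEquiv.mul_apply, he, he, Complex.conj_conj]; rfl)
  refine (c.frame p (D := Subgroup.zpowers σ) (Subgroup.zpowers_le.2 m) fun u _ g hg a => ?_).imp
    fun z' h => ⟨h.1, h.2.1 σ (Subgroup.mem_zpowers σ), h.2.2⟩
  obtain ⟨n, rfl⟩ := hg
  obtain ⟨n, rfl | rfl⟩ := Int.even_or_odd' n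
  · simp only [zpow_mul, zpow_two, s2, one_zpow]
  simp only [zpow_add, zpow_mul, zpow_two, s2, one_zpow, one_mul, zpow_one] at a
  obtain ⟨i, hi⟩ := IsAlgClosed.exists_pow_nat_eq (-1 : Qb) two_pos
  have := cy _ a (u⁻¹ i) (by rw [← map_pow, show 4 = 2 * 2 from rfl, pow_mul, hi]; simp)
  rw [← AlgEquiv.mul_apply, mul_inv_cancel_right, AlgEquiv.mul_apply, EmbeddingLike.apply_eq_iff_eq] at this
  have k := he i
  rw [this, eq_comm, Complex.conj_eq_iff_real] at k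
  obtain ⟨x, hx⟩ := k
  have h2 := congrArg e hi
  rw [map_pow, hx, map_neg, map_one] at h2
  have h3 : x ^ 2 = -1 := by exact_mod_cast h2
  nlinarith [sq_nonneg x]

end Vale.Agent.P014T.Ur
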